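import Crest.Agent.X212.Nd18.Aps
import Crest.Agent.X212.Mp86.Trg
import Crest.Agent.X212.Ixc71.Main
import Crest.Agent.X212.Top36.Top
import Crest.Agent.X212.Glc56.Main
import Crest.Agent.X212.Glc56.Std
import Crest.Agent.X212.Glc56.Cyl
import Crest.Agent.X212.Ixc61.Clo
import Crest.Agent.X212.Num57.Rz
import Crest.Agent.X212.Ixm76.Main
import Crest.Agent.X212.Cht98.TrS
import Crest.Agent.X212.Ulc97.Ec
import Crest.Agent.X212.Crt72.Iv4
import Crest.Agent.X212.Ax1.Lc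
import Crest.Agent.X212.Dec35.Jp
import Crest.Agent.X212.Ntz30.Main
import Crest.Agent.X212.Mon62.Lz4
import Crest.Agent.X212.Rsv69.Lc

/-!
# Row 212, layer P: the index leaves
-/

set_option autoImplicit false
set_option linter.unusedSectionVars false

namespace Crest.Agent.X212.Top0
open Nd18

theorem ixl {κ lam : Type} [Fintype κ] [Fintype lam] (hT : Cht98.TrnStmt κ lam 8)
    (hI : InvStmt κ lam 8) : IxL κ lam 8 :=
  have k : 7 ≤ 8 := by norm_num
  ⟨Mp86.Trg.geqS k hT, Ixc71.cut (Mp86.Trg.rotS k hT) Glc56.cyl, Mp86.Trg.splS k hT, Top36.topStmt,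
    Glc56.glc, Glc56.trp, Glc56.std, Ixc61.cloStmt _ _ k, Rz57.rz _ _ k, Ixm76.mon _ _ k (Mp86.Trg.geqS k hT), hI,
    Glc56.cyl⟩

/-- the open analytic inputs on cylinders -/
structure At (κ lam : Type) [Fintype κ] [Fintype lam] : Prop where
  natz : Cht98.NatZ κ lam 8

namespace At
variable {κ lam : Type} [Fintype κ] [Fintype lam] (H : At κ lam)
include H

theorem loce : Ax1.Fr.LocE κ lam := Mon62.Lz.locE κ lam
theorem rsp : Dec35.Rsp κ lam := fun _ _ =>
  ⟨Rsv69.p1Stmt, fun _ _ _ hD hN hβ => ⟨Rsv69.p1In hD hN hβ, Rsv69.loc hD hN hβ⟩⟩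
theorem kp : Crt72.KpAll κ lam := fun Y _ => Cyf70.kp (H.rsp Y).1
theorem inv : InvStmt κ lam 8 := Crt72.inv (by norm_num) (Ax1.Lc.cz H.loce) H.kp
theorem ix : IxL κ lam 8 :=
  ixl (Cht98.trn_of (by norm_num) (Ulc97.ec (by norm_num) H.natz)) H.inv

end At

theorem at0 (κ lam : Type) [Fintype κ] [Fintype lam] : At κ lam := ⟨Ntz30.natZ κ lam (by norm_num)⟩

end Crest.Agent.X212.Top0
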