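import Crest.Agent.X212.Top11.Fin
import Crest.Agent.X212.Kof81.Gx
import Crest.Agent.X212.Pte3.Part
import Crest.Agent.X212.Stp12.Main
import Crest.Agent.X212.Sym93.Main
import Crest.Agent.X212.Eps37.Main
import Crest.Agent.X212.Mp86.St2
import Crest.Agent.X212.Kl48.Main
import Crest.Agent.X212.Tm38.Abw
import Crest.Agent.X212.Lns95.Fin
import Crest.Agent.X212.Nd18.Fca
import Crest.Agent.X212.Fex7.Main
import Crest.Agent.X212.Dgr80.Eb
import Crest.Agent.X212.Lit63.Main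
import Crest.Agent.X212.Wl34.Wl
import Crest.Agent.X212.Wl34.Ccl
import Crest.Agent.X212.Pat85.Iso
import Crest.Agent.X212.Chg68.Fin
import Crest.Agent.X212.Num57.FrxC
import Crest.Agent.X212.Spl54.Ex
import Crest.Agent.X212.Add46.Main
import Crest.Agent.X212.Lix26.Fin
import Crest.Agent.X212.Sw21.Ly
import Crest.Agent.X212.Cay24.Px
import Crest.Agent.X212.Gb50.Pnq
import Crest.Agent.X212.Loc45.Cg
import Crest.Agent.X212.Cok75.Main
import Crest.Agent.X212.Pte3.Dec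
import Crest.Agent.X212.Rf65.Fn2
import Crest.Agent.X212.Alc32.C
import Crest.Agent.X212.Abx52.Ntc
import Crest.Agent.X212.Kof81.Kpo
import Crest.Agent.X212.Gla92.Main
import Crest.Agent.X212.Gb50.Tri
import Crest.Agent.X212.Exc36.Main
import Crest.Agent.X212.Cut63.Main
import Crest.Agent.X212.Pte3.Tl3
import Crest.Agent.X212.Nck90.Lev
import Crest.Agent.X212.Dgr80.Elm
import Crest.Agent.X212.Top0.IX
import Crest.Agent.X212.Pat85.UqB
import Crest.Agent.X212.Cmp73.Fin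
import Crest.Agent.X212.M.Lvz
import Crest.Agent.X212.Est17.Est
import Crest.Agent.X212.Gla92.Lz4
import Crest.Agent.X212.Num99.Main
import Crest.Agent.X212.Wal14.Asm
import Crest.Agent.X212.Sw.Zl
import Crest.Agent.X212.St29.Row
import Crest.Agent.X212.Nk89.Zn

/-!
# Row 212, layer P: the leaves plugged
-/

set_option autoImplicit false
noncomputable section

namespace Crest.Agent.X212.Top0
open An An.Job M G75 Ins26 Top11 Kof81
open Rf65 hiding Fa WallL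

section
variable (Lm : LM Top11.κ0 l0)

variable {Lm}

theorem lh (h : LmOK Lm) : Lns95.LH Lm := ⟨h.cut, h.deg, h.lok, h.lx⟩

theorem cmpW : AllS Lm fun J => CmpL J := fun _ D i _ _ _ J _ hJ =>
  Cmp73.cmpL hJ D.nrm (D.lnrm i) Loc66.kt (fun _ => X212.M.pinch_of (Est17.est hJ)) (X212.M.null J)
    (Cut63.cut hJ)

theorem pscW : AllS Lm fun J => ∀ a, PX (J.xs a) → WI J a := fun S D i Wi r n J o hJ a h =>
  have p : Nck90.PW (J.xs a) := h.py.elim fun b py => ⟨h.nil, h.ty, fun β k =>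
    have s := (Wl34.wlJ J a _ b (hJ.xs a).1.yd h.nil py).1 β k
    ⟨s, Wl34.hc py s⟩, py.ps⟩
  ⟨.inl p, .of fun _ _ hσ _ _ _ _ hs _ ha => Dgr80.elm_psc hJ hσ hs ha p.nil p.ty p.bs p.ps,
    .of fun _ => Nck90.chX_psc hJ (cmpW S D i Wi r n J o hJ).1 p⟩

theorem goW : AllS Lm fun J => GoL J := fun _ D i _ _ _ _ _ _ _ _ _ _ _ _ _ _ h =>
  have k : 7 ≤ 8 := by norm_num
  let ⟨a1, a2, a3, a4, a5, a6⟩ := Gla92.six h k
  have s : Gb50.Sd (D.Λ i) := ⟨⟨D.B, D.std⟩, D.b i, D.lstd i⟩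
  ⟨a1, a2, a3, a4, Gb50.Tri.locS h s a1 (Lpe67.lipE h k)
    (Cay24.Px.pertS_of h s k fun I f => Gb50.fin_cg (Loc45.Ix.cgS I) f), Lz92.locZ h k,
    a5, a6⟩

theorem klx (h : LmOK Lm) : KLx Lm where
  spl _ _ _ _ _ _ J _ _ c := Spl54.splJ J c
  dec _ _ _ _ _ _ J _ _ c := Pte3.dec J c
  prt _ _ _ _ _ _ J _ _ c := Pte3.prt0 (Pte3.decP J c) (Pte3.tlP J c)
    (Stp12.stP J c)
  sym _ _ _ _ _ _ _ _ _ _ := Sym93.sym
  add _ D i _ _ _ _ _ _ _ := Add46.add (at0 _ _).ix D.nrm (D.lnrm i)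
  wl _ _ _ _ _ _ J _ _ a := Wl34.wlJ J a
  ccl _ _ _ _ _ _ _ _ hJ _ _ pj hσ := Wl34.ccl hJ pj hσ
  iso _ _ _ _ _ _ J _ _ c := Pat85.isoL J c
  eps _ _ _ _ _ _ J _ _ := Eps37.eps J
  st1 _ _ _ _ _ _ _ _ _ _ _ _ _ _ _ := Mp86.St.stra1
  st2 _ _ _ _ _ _ _ _ _ _ _ _ _ _ _ _ := Mp86.St.stra2
  wall _ _ _ _ _ _ J _ _ := Wal14.wallS (Sw.Zl.zl _ _) (St29.Rw.rowL J) (Nk89.Zn.znL J)
  ly := Sw21.ly (lh h)
  lix := Lix26.lixL (lh h) (Num99.num (lh h) (at0 _ _).ix)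
  cok := Cok75.cok h.lok.choose
  uq := have L := Lns95.lv0 (lh h); Pat85.uq ⟨L.cls, L.uni, L.geo⟩
  nt := Ntb52.ntStmt (lh h)
  kl := Kl48.kl Tm38.sum Tm38.abw
  psc := pscW
  chg _ _ _ _ _ _ J _ _ := Chg68.chgL J
  cmp := cmpW
  go := goW
  frx _ _ _ _ _ _ _ _ _ _ _ _ h := Frx57.frx_gx h

end

/-- **layer P** -/
theorem op : Op where
  kit _ h := (klx h).klv.kit
  lens _ h := Lns95.lens (lh h) (klx h).klv.type
  rf _ h c := (RQ.ro ⟨Alc32.altC _⟩).rf (lh h) (klx h) c _ (fun _ _ _ _ _ => id) fun _ _ _ => id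
  fact _ h c := Nd18.fact c.eval c.cnt (Fex7.exP h.cut) 
    (Kof81.klP (at0 _ _) (lh h) (klx h) c.dat) Exc36.excP
    (Dgr80.ebP (fun _ _ _ _ _ k => ⟨Tms63.tmsz k, Lit63.litJ k⟩) c.dat c.ex)

end Crest.Agent.X212.Top0
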