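import Crest.Agent.X212.Top0.SL
import Crest.Agent.X212.Top0.PL

/-!
# Row 212: the statement
-/

set_option autoImplicit false

namespace Crest.Agent.X212.Top0

theorem goal_fin : Skel83.Goal := goal_of op

end Crest.Agent.X212.Top0
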