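import Crest.Agent.X212.End23.Mk
import Crest.Agent.X212.Ix82.Gr
import Crest.Agent.X212.Rad94.Mrk
import Crest.Agent.X212.Cyc79.Ed
import Crest.Agent.X212.Pb50.Cyl
import Crest.Agent.X212.Sw87.MoE

/-!
# Row 212, layer S: the final marks
-/

set_option autoImplicit false
set_option linter.unusedSectionVars false
noncomputable section

namespace Crest.Agent.X212.Top0
open An Sw Sw.En3
open Flo2 (Mk Ty End)
open End23 (Qhs TorX DeadX NoOld lo' mu sh0)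
open Ix82 (G rho Rf)

variable {κ lam ν : Type} [Fintype κ] [Fintype lam] [Fintype ν] [DecidableEq ν]

/-- no old generators, positive scalar curvature with a margin -/
def psc (e : End κ lam ν) : Prop := ∀ c, NoOld (e.en c) ∧
  ∃ σ > 0, ∀ y, σ + ‖(e.en c).cyl.ms (y, 0)‖ ^ 2 ≤ Sw88.sc (e.en c).cyl (y, 0) / 8

/-- **the marks**, normalised at `e₀` -/
def mk0 (e₀ : En3 κ lam ν) : Mk κ lam ν where
  qhs e := ∀ c, Qhs (e.en c)
  tor e := ∀ c, TorX (e.en c) e.u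
  dead e := ∀ c, DeadX (e.en c)
  psc := psc
  sph e := psc e ∧ ∀ c, rho e₀ (e.en c) = 0
  lw ε := rho e₀ ε.en + lo' ε.en
  tp := Ix82.Tp
  hi1 := Rad94.Hi1
  al1 := Rad94.Al1 psc Ix82.Tp
  ex1 := Rad94.Ex1

variable (e₀ : En3 κ lam ν)

theorem mksI : Ix82.Mks (mk0 e₀) := ⟨fun _ h c => (h c).lk, fun _ _ h => h⟩

theorem mksR : Rad94.Mks (mk0 e₀) := ⟨fun _ h => h, fun _ h => h, fun _ h => h⟩

theorem ne_of_eqv {e : En3 κ lam ν} (he : e.OK) {v v' : e.YC} (h : Eqv v v') (h0 : ∃ y, v.Φ y ≠ 0) :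
    ∃ y, v'.Φ y ≠ 0 := by
  obtain ⟨y, hy⟩ := h0
  obtain ⟨g, -, k⟩ := Cyc79.eqv_symm he h
  refine ⟨y, fun e0 => hy ?_⟩
  have : v.Φ y = cs e.m.J (g y) (v'.Φ y) := congrArg (fun c : e.ZC => c.Φ (y, 0)) k
  rw [this, e0]
  simp [cs]

theorem mksE (hM : End23.MuStmt κ lam ν) (hG : End23.GrStmt κ lam ν) :
    End23.Mks (G e₀) (mk0 e₀) fun ε => rho e₀ ε.en where
  qhs _ h := h
  tor _ h := h
  dead _ h := h
  psc _ h c := (h c).1
  sph _ h := h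
  lw _ := le_rfl
  gr ε a k w b S ψ he hw v c n i := by
    have m : Qhs ε.en ∨ ∃ u, TorX ε.en u := by
      rcases e : ε.1.kd with _ | _ | _
      exacts [.inl ((a.qhs e).1 ε.2), .inr ⟨_, (a.tor e).1 ε.2⟩, (k e).elim]
    have r : Rf ε.en := by
      rcases m with ⟨M, h, -⟩ | ⟨_, ⟨M, h, -⟩, -⟩ <;> exact (hM.rf _ M h).1
    refine ⟨Ix82.gr_eq e₀ r .., fun v' e => ?_⟩
    have h1 := hG _ (a.ok ε.2) m w b S ψ he hw v c n i
    have h2 := (hG _ (a.ok ε.2) m w b S ψ he hw v' (Pb50.Eqv.crit he c e) (Cyc79.nd_eqv he c.1 e n)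
      (ne_of_eqv he e i)).1
    rw [Ix82.gr_eq e₀ r, Ix82.gr_eq e₀ r, show mu v' = mu v by have := h1.2 v' e; have := h1.1; omega]

theorem ok_re {e₀ e₁ : En3 κ lam ν} {e : End κ lam ν} (h : e.OK (mk0 e₀)) : e.OK (mk0 e₁) :=
  { h with }

open Sw87.Mo

/-- the ends do not depend on the normalisation -/
def reQ {e₀ : En3 κ0 L0 ν0} (e₁ : En3 κ0 L0 ν0) {A} (E : EndQ (mk0 e₀) A) : EndQ (mk0 e₁) A :=
  { E with ok := ok_re E.ok }

/-- the same for `S² × S¹` -/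
def reR {e₀ : En3 κ0 L0 ν0} (e₁ : En3 κ0 L0 ν0) {R c} (E : EndR (mk0 e₀) R c) : EndR (mk0 e₁) R c :=
  { E with ok := fun s => ok_re (E.ok s) }

/-- the same for all ends -/
def reE {e₀ : En3 κ0 L0 ν0} (e₁ : En3 κ0 L0 ν0) (E : Ends (mk0 e₀)) : Ends (mk0 e₁) :=
  ⟨fun A => reQ e₁ (E.q A), fun G => reR e₁ (E.r G)⟩

/-- the end of the sphere is the origin of the grading -/
theorem sph_self {e : End κ lam ν} (h : psc e) [Subsingleton e.L] (c : e.L) : (mk0 (e.en c)).sph e :=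
  ⟨h, fun c' => Subsingleton.elim c c' ▸ Ix82.rho_self _⟩

end Crest.Agent.X212.Top0
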