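import Crest.Agent.X212.Abel74.Cmf
import Crest.Agent.X212.Cmp73.Core
import Crest.Agent.X212.Pat85.Tr
import Crest.Agent.X212.Eq82.Main
import Crest.Agent.X212.Top68.Main
import Crest.Agent.X212.Taub88.Fin

/-!
# Row 212, AN5: compactness on a closed manifold; NV from the models
-/

set_option autoImplicit false
set_option linter.unusedSectionVars false
noncomputable section
open scoped Manifold ContDiff Topology
open Filter Set

namespace Crest.Agent.X212.Top0
open An Eq82 Cmp73
open Line51 (Ln)

variable {E : Type} [NormedAddCommGroup E] [NormedSpace ℝ E] [FiniteDimensional ℝ E]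
  [MeasurableSpace E] [BorelSpace E]
  {HM : Type} [TopologicalSpace HM] {I : ModelWithCorners ℝ E HM} [I.Boundaryless]
  {M : Type} [TopologicalSpace M] [ChartedSpace HM M] [IsManifold I ∞ M]
  [MeasurableSpace M] [BorelSpace M] [SecondCountableTopology M] [T2Space M] [CompactSpace M]
  {ι : Type} [Fintype ι] [DecidableEq ι] {lam : Type} [Fintype lam] {r : ℕ} {α : Type}

theorem core_cpt {g : Gs I I M ι lam fun _ : α => M} (c : α → Cfg M ι lam r) (hg : g.OK) : g.Core c :=
  hg.core fun _ ha hP fin hF hΦ => Pat85.ga hg ha (E' := EuclideanSpace ℝ (Fin 4))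
    (Pat85.cvxOn_compact (ContinuousLinearEquiv.ofFinrankEq (hg.h4.trans (by simp))) isCompact_univ)
    (by simp) hP fin hF hΦ

variable {κ : Type} [Fintype κ] [DecidableEq κ] (X : Bk I M ι)

/-- **`CmpL`** -/
theorem cmpL {L : Ln E M κ} (hL : L.On I univ) : CmpL X L :=
  Abel74.cmpL_core hL fun _ _ _ c hg => core_cpt c hg

/-- **NV** from the models -/
theorem nv_mds [ConnectedSpace M] (h2 : 2 ≤ Num57.bp X.ok.ori)
    (h : ∀ (κ : Type) [Fintype κ] [DecidableEq κ] (L : Ln E M κ), L.On I univ → MdsL X L) : NV X :=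
  nv_of X h2 (fun κ _ _ L hL => ⟨cmpL X hL, h κ L hL, Top68.topStmt⟩) (Taub88.taubL X)

end Crest.Agent.X212.Top0
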