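import Crest.Agent.X212.Top0.H
import Crest.Agent.X212.Sw87.Fin
import Crest.Agent.X212.Nk6.Main
import Crest.Agent.X212.Sm25.Nv
import Crest.Agent.X212.Rob53.Iso
import Crest.Agent.X212.Rob53.Rfl
import Crest.Agent.X212.Nv17.Lbl
import Crest.Agent.X212.Bu22.Main
import Crest.Agent.X212.Cg28.Main
import Crest.Agent.X212.Pos17.Out
import Crest.Agent.X212.Srf12.Main

/-!
# Row 212: the statement from the Floer theory and the two small cases
-/

set_option autoImplicit false

namespace Crest.Agent.X212.Top0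

/-- **layer S** from the Floer theory -/
theorem sys (hT : Bor5.T.ThStmt) : Bor5.Sys0Stmt :=
  Sw87.sys1 hT hout Nk6.nk Sm25.nvExt Sm25.nvTest Rob53.isoStmt Rob53.rflStmt Nv17.lbl Bu22.bu Bu22.ex

/-- **the statement** from the three open inputs -/
theorem goal (hT : Bor5.T.ThStmt) (o1 : Bor5.Opp1) (o2 : Bor5.Opp2) : Skel83.Goal :=
  Srf12.goal (Pos17.core (sys hT) Cg28.cgStmt o1 o2)

end Crest.Agent.X212.Top0
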