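import Crest.Agent.X212.Top0.Mk
import Crest.Agent.X212.Top11.Fin
import Crest.Agent.X212.Geo28.Fin
import Crest.Agent.X212.Sw87.MoE
import Crest.Agent.X212.Sw.Asm
import Crest.Agent.X212.Dec47.Main
import Crest.Agent.X212.Loc74.Main
import Crest.Agent.X212.St29.Lim
import Crest.Agent.X212.Lvo97.Lok
import Crest.Agent.X212.Ext33.Main
import Crest.Agent.X212.Lvf40.Main
import Crest.Agent.X212.Lwl9.Main
import Crest.Agent.X212.Sm10.Nat1
import Crest.Agent.X212.Sw88.Apr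
import Crest.Agent.X212.Sw88.Bnd
import Crest.Agent.X212.Mp86.Lb
import Crest.Agent.X212.Mp86.En7
import Crest.Agent.X212.Wp42.Flux
import Crest.Agent.X212.Irr71.Main
import Crest.Agent.X212.Sm25.Fin
import Crest.Agent.X212.Nv5.Cyl
import Crest.Agent.X212.Rob53.Ag
import Crest.Agent.X212.Rob53.Dsc
import Crest.Agent.X212.Mv17.Cl
import Crest.Agent.X212.Mv17.Pun
import Crest.Agent.X212.Geo7.Gln
import Crest.Agent.X212.End23.Tw
import Crest.Agent.X212.Hp13.Num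
import Crest.Agent.X212.Es42.Rs
import Crest.Agent.X212.Es42.Nb
import Crest.Agent.X212.Es42.Lvl
import Crest.Agent.X212.Gap6.Main
import Crest.Agent.X212.Wp42.Lev
import Crest.Agent.X212.Ulc97.Main
import Crest.Agent.X212.Sw.N0
import Crest.Agent.X212.Hp13.Gr
import Crest.Agent.X212.Sw88.Rad
import Crest.Agent.X212.Sw.One
import Crest.Agent.X212.Dz34.Top
import Crest.Agent.X212.Mcg32.DzM
import Crest.Agent.X212.Hp13.Mu
import Crest.Agent.X212.Cyl58.Ah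
import Crest.Agent.X212.Cyc79.Ee
import Crest.Agent.X212.Es42.Flat
import Crest.Agent.X212.Ix82.Main
import Crest.Agent.X212.Geo7.Abs
import Crest.Agent.X212.Cyl58.Sf
import Crest.Agent.X212.Cyl58.Cpt
import Crest.Agent.X212.Sm25.BuB
import Crest.Agent.X212.Psc68.Main
import Crest.Agent.X212.Rax71.Main
import Crest.Agent.X212.Rad94.AbM
import Crest.Agent.X212.Mcg32.EndC
import Crest.Agent.X212.Cyc79.Ed
import Crest.Agent.X212.Hp13.Crit
import Crest.Agent.X212.St29.Tow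
import Crest.Agent.X212.End23.Frq
import Crest.Agent.X212.Nck9.Main
import Crest.Agent.X212.Pat85.Hdg
import Crest.Agent.X212.Pat85.Mul
import Crest.Agent.X212.Lw78.Slf
import Crest.Agent.X212.Ect9.Top
import Crest.Agent.X212.Sw88.Nsi
import Crest.Agent.X212.Sw88.C0v
import Crest.Agent.X212.Ix82.Fin
import Crest.Agent.X212.Cyl58.Pos
import Crest.Agent.X212.Sw21.Dir
import Crest.Agent.X212.Ulc97.Reg
import Crest.Agent.X212.Pen22.Tr
import Crest.Agent.X212.Cut19.Main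
import Crest.Agent.X212.Nv5.Chr
import Crest.Agent.X212.Nv5.Bsr
import Crest.Agent.X212.Nv5.Mtr
import Crest.Agent.X212.Cs52.Sph
import Crest.Agent.X212.Top11.Q
import Crest.Agent.X212.Top11.Mid
import Crest.Agent.X212.Top11.Ph
import Crest.Agent.X212.Top11.Ex
import Crest.Agent.X212.Cut7.NM
import Crest.Agent.X212.Mv17.Thm
import Crest.Agent.X212.Mv17.Cln
import Crest.Agent.X212.Mv17.Rel
import Crest.Agent.X212.Sw.Alg
import Crest.Agent.X212.Gnk31.Cut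
import Crest.Agent.X212.Es42.Slc
import Crest.Agent.X212.Top0.EL
import Crest.Agent.X212.Mcg32.Tree
import Crest.Agent.X212.Rtw9.Tw
import Crest.Agent.X212.Sw88.Ridx
import Crest.Agent.X212.Flo2.An5
import Crest.Agent.X212.Cut19.Ln
import Crest.Agent.X212.Sw.Unf
import Crest.Agent.X212.Rad94.Sup
import Crest.Agent.X212.Cyc79.Qc
import Crest.Agent.X212.St29.EcB
import Crest.Agent.X212.St29.EcC
import Crest.Agent.X212.Tbs74.An
import Crest.Agent.X212.Can17.Can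
import Crest.Agent.X212.Pen22.NvM
import Crest.Agent.X212.Rob53.AgP
import Crest.Agent.X212.Sw88.Big
import Crest.Agent.X212.Ulc97.Trm
import Crest.Agent.X212.Rtw9.Sm
import Crest.Agent.X212.Map77.Nrc

/-!
# Row 212, layer S: the open inputs
-/

set_option autoImplicit false
set_option linter.unusedSectionVars false
noncomputable section

namespace Crest.Agent.X212.Top0
open An Sw Flo2
open M (Mf)
open Ix82 (G rho)
open Sw87.Mo (κ0 L0 ν0 QM)

section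
variable {κ lam ν : Type} [Fintype κ] [Fintype lam] [Fintype ν] [DecidableEq ν]

theorem brk : BrkStmt κ lam ν :=
  Sep15.S.brkStmt Asm.win Asm.dl Asm.drift Dec47.dec1 fun _ _ _ _ _ _ _ _ _ _ =>
    Loc74.locS (St29.Lim.limStmt _ _ _ _ _)

theorem apr : Sw88.AprStmt κ lam ν := Sw88.apr (Mp86.En.enStmt _ _ _) Asm.dl Asm.psy

theorem bij : End23.BijStmt κ lam ν := Cyc79.bijStmt (Ah58.sfStmt _ _ _) Ah58.ahStmt
theorem dat : End23.DatStmt κ lam ν := Cyc79.datStmt (Ah58.sfStmt _ _ _) Ah58.ahStmt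
theorem mu : End23.MuStmt κ lam ν := Hp13.Mu.muStmt (Ah58.sfStmt _ _ _) Ah58.ahStmt bij dat Es42.flatStmt

theorem ix : Ix82.IxC κ lam ν := Ix82.ixC

theorem alg : Rad94.AlgStmt κ lam ν := Sw.Alg.algStmt _ _ _
theorem rb : Rad94.RbStmt κ lam ν := Gnk31.rbStmt _ _ _
theorem trm : Rad94.TrmStmt κ lam ν := Ulc97.trmStmt alg rb

theorem uc (d : Dt κ lam ν) (N : Type) [Fintype N] (ty : N → d.𝓔) (X : Mf 4) (nc k : ℕ) :
    End23.UcStmt d ty X nc (Fin k → ℝ) :=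
  Cyc79.Uc.ucStmt (St29.Ec.loca _ _ _ _ _) (St29.Ec.locu _ _ _ _ _)

theorem la : End23.LA κ lam ν :=
  ⟨Hp13.Cr.critStmt bij Gap6.gapStmt (Cpt58.cptStmt _ _ _)
      (St29.tow (Ah58.sfStmt _ _ _) Ah58.ahStmt dat bij mu Es42.lvlStmt Es42.nbStmt),
    Hp13.Num.num Gap6.gapStmt mu, Es42.rsStmt, Es42.nbStmt, bij, (Cpt58.cptStmt _ _ _), Gap6.gapStmt, Es42.lvlStmt,
    Wp42.levStmt⟩

theorem lb : End23.LB κ lam ν :=
  ⟨la, apr, Nck9.neck Pat85.hdgStmt Pat85.mulStmt (Es42.slcStmt Gap6.gapStmt Pat85.mulStmt)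
      Lw78.slf Lw78.c0u, Ect9.top, Pos58.posStmt _ _ _,
    Pos58.asyStmt _ _ _, Sw88.nsi _ _ _, Sw88.c0v _ _ _, 
    Sw88.Big.big Pat85.hdgStmt (Es42.slcStmt Gap6.gapStmt Pat85.mulStmt) Lw78.c0u, uc, Mcg32.Tre.tree uc⟩

theorem lanes (e₀ : En3 κ lam ν) : Lanes (mk0 e₀) (G e₀) :=
  have m := mksE e₀ mu (Hp13.Gr.grStmt (Ah58.sfStmt _ _ _) Ah58.ahStmt mu ix.mu ix.sym ix.rep ix.gau
    ix.inv ix.loop)
  have t := End23.tow la m
  have i := ix.ind (mksI e₀) e₀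
  have b := Sw88.bndStmt apr (Mp86.En.labStmt _ _ _) (Mp86.En.formStmt _ _ _) Wp42.gpwStmt ⟨m.mkP.1, m.mkP.2⟩ t i
  have r := Irr71.irr apr Asm.dl Asm.psy t i
  { lvs := fun _ _ _ _ => Asm.lvs_of brk
    dens := fun _ _ _ _ _ _ _ _ => Asm.dens
    densZ := fun d _ Sl _ => Dz34.densZ_mu d Sl Mcg32.Dz.muStmt
    lok := Lvo97.lok _
    ext := Ext33.extStmt _
    fc := Lvf40.fc (fun d _ Sl _ => Sm10.Nt.nat d Sl) (Lvo97.lev _ _ _)
    wl := Lwl9.wl
    ex := End23.ex la m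
    tow := t
    ind := i
    freq := End23.freq lb m b
    bnd := b
    rad := Sw88.radStmt ⟨mksR e₀, Sw.One.one (Rax71.out Rad94.absStmt alg (Sw21.dirStmt _ _ _) rb (Ulc97.ulStmt _ _)) 
      (Sw.Unf.unfStmt _ _ _ trm)
      trm (Mcg32.En.endStmt Asm.win Asm.mono Dec47.dec1 fun _ _ _ h => Cyc79.nd_eqv h) 
      (Ulc97.regStmt alg (Sw21.dirStmt _ _ _)) alg
      (Ulc97.ulStmt _ _) rb (Sep15.S.eqv (Pb50.pb _ _ _)), Psc68.pscStmt _ _ _, 
      Rtw9.small lb m b (Nck9.up Pat85.hdgStmt Pat85.mulStmt (Es42.slcStmt Gap6.gapStmt Pat85.mulStmt) Lw78.slf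
        Lw78.c0u) Rad94.sup, Map77.Nr.nrc b,
      Rtw9.twid la m, Rtw9.twhi la m, Sw88.ridx _ _ _, Sw88.rich _ _ _,
      Sw.N0.n0 (fun _ _ _ _ _ _ _ => ⟨Asm.ax, Asm.rep, Asm.dens⟩) brk,
      fun _ _ _ _ _ _ _ => Asm.fred, Lvo97.lok _, End23.ex la m, t, i, b, r⟩
    irr := r
    lw := End23.lw la m }

theorem anS (e₀ : En3 κ lam ν) : AnStmt (mk0 e₀) := Flo2.anStmt (lanes e₀)

end

theorem lvsG : Geo28.Lvs :=
  ⟨Rob53.agStmt, Mv17.clsStmt, Geo7.cob, Geo7.gln, Geo7.abs, Rob53.dscStmt, Nv5.cylStmt, Rob53.pinStmt,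
    Sm25.fin, Nv5.s3Stmt, Mv17.punStmt, Sm25.bu⟩

/-- the closed manifolds with one solution -/
abbrev Q0 : Bor5.T.Prd := QM Rad94.Ex1

theorem cut : Pen22.CutStmt :=
  Cut19.cutStmt ⟨Cut19.Ln.lnStmt, Nv5.Ch.chrStmt, Mv17.clnStmt, Cs52.sphStmt, Nv5.bStmt, Nv5.r3Stmt, Mv17.thmStmt, Top11.Ex.ext,
    Top11.Ex.h3, Mv17.nsStmt, Top11.Ph.ph, Top11.Mid.mid⟩ Top11.Q.qStmt Cut7.nStmt

theorem th : Bor5.T.ThStmt :=
  Geo28.th lvsG (eng lvsG anS) (Tbs74.taub_of Can17.canStmt)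
    (fun _ E => Pen22.triad E lvsG cut Mv17.relStmt Nv5.modStmt)
    fun _ E => Pen22.nv E lvsG cut Mv17.relStmt Nv5.modStmt Rob53.penAg

/-- **the statement** from the open inputs of both layers -/
theorem goal_of (P : Top11.Op) : Skel83.Goal := P.pl.goal th

end Crest.Agent.X212.Top0
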